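import Mathlib
import Vale.Agent.Lib.P137.TVDefs

/-!
# P137, piece L1: smooth radial test fields

For `δ > 0`, `R ≥ 1`, `c < 1` we construct a continuously differentiable vector field `φ` with
compact support and `|φ| ≤ 1` such that `div φ ≥ 0` on the ball of radius `R`,
`div φ ≥ c (d - 1) / |x|` for `δ ≤ |x| ≤ R`, and `div φ ≥ -M` everywhere else, where `M` depends
on the dimension only (`exists_field`).

The field is `φ x = ρ (x / R) • x / sqrt (|x| ^ 2 + e)` with `e = (1 - c) δ ^ 2 / 2` and `ρ` a fixed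
smooth cut-off which is `1` on the ball of radius `2` and `0` outside the ball of radius `4`.
The divergence of `x / sqrt (|x| ^ 2 + e)` is `((d - 1) |x| ^ 2 + d e) / (|x| ^ 2 + e) ^ (3 / 2)`,
and `M` is a bound for the derivative of `ρ`.
-/

open MeasureTheory

namespace Vale.Agent.Lib.P137

/-- A vector is the sum of its coordinates times the coordinate vectors. -/
theorem jL1_sum_single {d : ℕ} (v : Sp d) :
    ∑ i : Fin d, v i • (EuclideanSpace.single i (1 : ℝ) : Sp d) = v := by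
  have h := (EuclideanSpace.basisFun (Fin d) ℝ).sum_repr v
  simpa using h

/-- The product rule for the divergence. -/
theorem jL1_div_smul {d : ℕ} (a : Sp d → ℝ) (ψ : Sp d → Sp d) (x : Sp d)
    (ha : DifferentiableAt ℝ a x) (hψ : DifferentiableAt ℝ ψ x) :
    divergence (fun y => a y • ψ y) x = a x * divergence ψ x + fderiv ℝ a x (ψ x) := by
  unfold divergence
  rw [fderiv_fun_smul ha hψ]
  simp only [add_apply, smul_apply,
    ContinuousLinearMap.smulRight_apply, PiLp.add_apply, PiLp.smul_apply, smul_eq_mul]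
  rw [Finset.sum_add_distrib, ← Finset.mul_sum]
  congr 1
  conv_rhs => rw [← jL1_sum_single (ψ x)]
  rw [map_sum]
  refine Finset.sum_congr rfl (fun i _ => ?_)
  rw [map_smul, smul_eq_mul, mul_comm]

/-- The divergence of the identity field is the dimension. -/
theorem jL1_div_id {d : ℕ} (x : Sp d) : divergence (fun y : Sp d => y) x = (d : ℝ) := by
  unfold divergence
  simp

/-- The regularised inverse norm `(|x| ^ 2 + e) ^ (-1 / 2)`. -/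
noncomputable def jL1_b {d : ℕ} (e : ℝ) (x : Sp d) : ℝ := (Real.sqrt (‖x‖ ^ 2 + e))⁻¹

theorem jL1_q_pos {d : ℕ} {e : ℝ} (he : 0 < e) (x : Sp d) : 0 < ‖x‖ ^ 2 + e := by positivity

theorem jL1_b_contDiff {d : ℕ} {e : ℝ} (he : 0 < e) : ContDiff ℝ 1 (jL1_b (d := d) e) := by
  have h1 : ContDiff ℝ 1 (fun x : Sp d => ‖x‖ ^ 2 + e) := (contDiff_norm_sq ℝ).add contDiff_const
  have h2 : ContDiff ℝ 1 (fun x : Sp d => Real.sqrt (‖x‖ ^ 2 + e)) :=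
    h1.sqrt (fun x => (jL1_q_pos he x).ne')
  exact h2.inv (fun x => (Real.sqrt_pos.mpr (jL1_q_pos he x)).ne')

theorem jL1_b_fderiv_self {d : ℕ} {e : ℝ} (he : 0 < e) (x : Sp d) :
    fderiv ℝ (jL1_b (d := d) e) x x
      = -(‖x‖ ^ 2) / ((‖x‖ ^ 2 + e) * Real.sqrt (‖x‖ ^ 2 + e)) := by
  have hq := jL1_q_pos he x
  have hr : 0 < Real.sqrt (‖x‖ ^ 2 + e) := Real.sqrt_pos.mpr hq
  have h1 : HasFDerivAt (fun y : Sp d => ‖y‖ ^ 2 + e) (2 • innerSL ℝ x) x :=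
    (hasStrictFDerivAt_norm_sq x).hasFDerivAt.add_const e
  have h2 := h1.sqrt hq.ne'
  have h3 : HasFDerivAt (jL1_b (d := d) e) _ x := (hasDerivAt_inv hr.ne').comp_hasFDerivAt x h2
  rw [h3.fderiv]
  simp only [smul_apply, innerSL_apply_apply, real_inner_self_eq_norm_sq, smul_eq_mul,
    nsmul_eq_mul, Real.sq_sqrt hq.le]
  push_cast
  field_simp

/-- The field `x / sqrt (|x| ^ 2 + e)`. -/
noncomputable def jL1_psi {d : ℕ} (e : ℝ) (x : Sp d) : Sp d := jL1_b e x • x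

theorem jL1_psi_contDiff {d : ℕ} {e : ℝ} (he : 0 < e) : ContDiff ℝ 1 (jL1_psi (d := d) e) :=
  (jL1_b_contDiff he).smul contDiff_id

theorem jL1_psi_norm_le {d : ℕ} {e : ℝ} (he : 0 < e) (x : Sp d) : ‖jL1_psi e x‖ ≤ 1 := by
  have hq := jL1_q_pos he x
  have hr : 0 < Real.sqrt (‖x‖ ^ 2 + e) := Real.sqrt_pos.mpr hq
  unfold jL1_psi jL1_b
  rw [norm_smul, norm_inv, Real.norm_eq_abs, abs_of_pos hr, inv_mul_le_iff₀ hr, mul_one]
  refine Real.le_sqrt_of_sq_le ?_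
  linarith

theorem jL1_psi_div {d : ℕ} {e : ℝ} (he : 0 < e) (x : Sp d) :
    divergence (jL1_psi (d := d) e) x
      = (((d : ℝ) - 1) * ‖x‖ ^ 2 + d * e) / ((‖x‖ ^ 2 + e) * Real.sqrt (‖x‖ ^ 2 + e)) := by
  have hq := jL1_q_pos he x
  have hr : 0 < Real.sqrt (‖x‖ ^ 2 + e) := Real.sqrt_pos.mpr hq
  have h : divergence (jL1_psi (d := d) e) x
      = jL1_b e x * divergence (fun y : Sp d => y) x + fderiv ℝ (jL1_b e) x x :=
    jL1_div_smul (jL1_b e) (fun y : Sp d => y) x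
      ((jL1_b_contDiff he).differentiable one_ne_zero x) differentiableAt_id
  rw [h, jL1_div_id, jL1_b_fderiv_self he]
  unfold jL1_b
  field_simp
  ring

theorem jL1_psi_div_nonneg {d : ℕ} (hd : 1 ≤ d) {e : ℝ} (he : 0 < e) (x : Sp d) :
    0 ≤ divergence (jL1_psi (d := d) e) x := by
  have hq := jL1_q_pos he x
  have hr : 0 < Real.sqrt (‖x‖ ^ 2 + e) := Real.sqrt_pos.mpr hq
  have hd' : (0 : ℝ) ≤ (d : ℝ) - 1 := sub_nonneg.mpr (by exact_mod_cast hd)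
  rw [jL1_psi_div he]
  exact div_nonneg (add_nonneg (mul_nonneg hd' (sq_nonneg _)) (mul_nonneg (Nat.cast_nonneg d) he.le))
    (mul_pos hq hr).le

/-- The lower bound for the divergence of the regularised field away from the origin. -/
theorem jL1_psi_div_ge {d : ℕ} (hd : 1 ≤ d) {δ c : ℝ} (hδ : 0 < δ) (hc : c < 1) (x : Sp d)
    (hx : δ ≤ ‖x‖) :
    c * ((d : ℝ) - 1) * ‖x‖⁻¹ ≤ divergence (jL1_psi (d := d) ((1 - c) / 2 * δ ^ 2)) x := by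
  have he : 0 < (1 - c) / 2 * δ ^ 2 := mul_pos (by linarith) (pow_pos hδ 2)
  have hd' : (0 : ℝ) ≤ (d : ℝ) - 1 := sub_nonneg.mpr (by exact_mod_cast hd)
  have hn : 0 < ‖x‖ := lt_of_lt_of_le hδ hx
  rcases le_or_gt c 0 with hc0 | hc0
  · have h1 : c * ((d : ℝ) - 1) * ‖x‖⁻¹ ≤ 0 :=
      mul_nonpos_of_nonpos_of_nonneg (mul_nonpos_of_nonpos_of_nonneg hc0 hd') (inv_nonneg.mpr hn.le)
    exact h1.trans (jL1_psi_div_nonneg hd he x)
  · have hq := jL1_q_pos he x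
    have hr : 0 < Real.sqrt (‖x‖ ^ 2 + (1 - c) / 2 * δ ^ 2) := Real.sqrt_pos.mpr hq
    have hδs : δ ^ 2 ≤ ‖x‖ ^ 2 := pow_le_pow_left₀ hδ.le hx 2
    have hη : c * ((3 - c) / 2) ^ 2 ≤ 1 := by
      nlinarith [mul_nonneg (sq_nonneg (1 - c)) (by linarith : (0 : ℝ) ≤ 4 - c)]
    have hq_le : ‖x‖ ^ 2 + (1 - c) / 2 * δ ^ 2 ≤ ‖x‖ ^ 2 * ((3 - c) / 2) := by
      have h1 : (1 - c) / 2 * δ ^ 2 ≤ (1 - c) / 2 * ‖x‖ ^ 2 :=
        mul_le_mul_of_nonneg_left hδs (by linarith)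
      linarith
    have hr_le : Real.sqrt (‖x‖ ^ 2 + (1 - c) / 2 * δ ^ 2) ≤ ‖x‖ * ((3 - c) / 2) := by
      have h0 : 0 ≤ ‖x‖ * ((3 - c) / 2) := mul_nonneg hn.le (by linarith)
      rw [← Real.sqrt_sq h0]
      refine Real.sqrt_le_sqrt ?_
      have h1 : ‖x‖ ^ 2 * ((3 - c) / 2) ≤ ‖x‖ ^ 2 * ((3 - c) / 2) ^ 2 := by
        have h2 : (3 - c) / 2 ≤ ((3 - c) / 2) ^ 2 := by nlinarith
        exact mul_le_mul_of_nonneg_left h2 (sq_nonneg _)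
      calc ‖x‖ ^ 2 + (1 - c) / 2 * δ ^ 2 ≤ ‖x‖ ^ 2 * ((3 - c) / 2) := hq_le
        _ ≤ ‖x‖ ^ 2 * ((3 - c) / 2) ^ 2 := h1
        _ = (‖x‖ * ((3 - c) / 2)) ^ 2 := by ring
    have hcqr : c * (‖x‖ ^ 2 + (1 - c) / 2 * δ ^ 2) * Real.sqrt (‖x‖ ^ 2 + (1 - c) / 2 * δ ^ 2)
        ≤ ‖x‖ ^ 2 * ‖x‖ := by
      calc c * (‖x‖ ^ 2 + (1 - c) / 2 * δ ^ 2) * Real.sqrt (‖x‖ ^ 2 + (1 - c) / 2 * δ ^ 2)
          ≤ c * (‖x‖ ^ 2 * ((3 - c) / 2)) * (‖x‖ * ((3 - c) / 2)) := by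
            have h3 : 0 ≤ ‖x‖ ^ 2 * ((3 - c) / 2) := le_trans hq.le hq_le
            exact mul_le_mul (mul_le_mul_of_nonneg_left hq_le hc0.le) hr_le hr.le
              (mul_nonneg hc0.le h3)
        _ = ‖x‖ ^ 2 * ‖x‖ * (c * ((3 - c) / 2) ^ 2) := by ring
        _ ≤ ‖x‖ ^ 2 * ‖x‖ * 1 := mul_le_mul_of_nonneg_left hη (by positivity)
        _ = ‖x‖ ^ 2 * ‖x‖ := mul_one _
    rw [jL1_psi_div he, le_div_iff₀ (mul_pos hq hr)]
    have h1 : c * ((d : ℝ) - 1) * ‖x‖⁻¹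
          * ((‖x‖ ^ 2 + (1 - c) / 2 * δ ^ 2) * Real.sqrt (‖x‖ ^ 2 + (1 - c) / 2 * δ ^ 2))
        = ((d : ℝ) - 1) * ‖x‖⁻¹ * (c * (‖x‖ ^ 2 + (1 - c) / 2 * δ ^ 2)
          * Real.sqrt (‖x‖ ^ 2 + (1 - c) / 2 * δ ^ 2)) := by ring
    have h2 : ((d : ℝ) - 1) * ‖x‖⁻¹ * (c * (‖x‖ ^ 2 + (1 - c) / 2 * δ ^ 2)
          * Real.sqrt (‖x‖ ^ 2 + (1 - c) / 2 * δ ^ 2))
        ≤ ((d : ℝ) - 1) * ‖x‖⁻¹ * (‖x‖ ^ 2 * ‖x‖) :=
      mul_le_mul_of_nonneg_left hcqr (mul_nonneg hd' (inv_nonneg.mpr hn.le))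
    have h3 : ((d : ℝ) - 1) * ‖x‖⁻¹ * (‖x‖ ^ 2 * ‖x‖) = ((d : ℝ) - 1) * ‖x‖ ^ 2 := by
      field_simp
    have h4 : (0 : ℝ) ≤ (d : ℝ) * ((1 - c) / 2 * δ ^ 2) := mul_nonneg (Nat.cast_nonneg d) he.le
    rw [h1]
    linarith

/-- A fixed smooth cut-off: `1` on the ball of radius `2`, `0` outside the ball of radius `4`. -/
noncomputable def jL1_bump (d : ℕ) : ContDiffBump (0 : Sp d) := ⟨2, 4, by norm_num, by norm_num⟩

/-- The rescaled cut-off: `1` on the ball of radius `2 R`, `0` outside the ball of radius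
`4 R`. -/
noncomputable def jL1_rho {d : ℕ} (R : ℝ) (x : Sp d) : ℝ := jL1_bump d (R⁻¹ • x)

theorem jL1_rho_contDiff {d : ℕ} (R : ℝ) : ContDiff ℝ 1 (jL1_rho (d := d) R) :=
  (jL1_bump d).contDiff.comp (contDiff_id.const_smul R⁻¹)

theorem jL1_rho_nonneg {d : ℕ} (R : ℝ) (x : Sp d) : 0 ≤ jL1_rho R x := (jL1_bump d).nonneg

theorem jL1_rho_le_one {d : ℕ} (R : ℝ) (x : Sp d) : jL1_rho R x ≤ 1 := (jL1_bump d).le_one

theorem jL1_rho_eq_one {d : ℕ} {R : ℝ} (hR : 0 < R) {x : Sp d} (hx : ‖x‖ ≤ 2 * R) :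
    jL1_rho R x = 1 := by
  refine (jL1_bump d).one_of_mem_closedBall ?_
  rw [mem_closedBall_zero_iff, norm_smul, norm_inv, Real.norm_eq_abs, abs_of_pos hR]
  show R⁻¹ * ‖x‖ ≤ 2
  rw [inv_mul_le_iff₀ hR]
  linarith

theorem jL1_rho_eq_zero {d : ℕ} {R : ℝ} (hR : 0 < R) {x : Sp d} (hx : 4 * R ≤ ‖x‖) :
    jL1_rho R x = 0 := by
  refine (jL1_bump d).zero_of_le_dist ?_
  rw [dist_zero_right, norm_smul, norm_inv, Real.norm_eq_abs, abs_of_pos hR]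
  show 4 ≤ R⁻¹ * ‖x‖
  rw [le_inv_mul_iff₀ hR]
  linarith

theorem jL1_rho_fderiv_eq_zero {d : ℕ} {R : ℝ} (hR : 0 < R) {x : Sp d} (hx : ‖x‖ < 2 * R) :
    fderiv ℝ (jL1_rho (d := d) R) x = 0 := by
  have h : jL1_rho (d := d) R =ᶠ[nhds x] fun _ => (1 : ℝ) := by
    have hopen : IsOpen {y : Sp d | ‖y‖ < 2 * R} := isOpen_lt continuous_norm continuous_const
    filter_upwards [hopen.mem_nhds hx] with y hy
    exact jL1_rho_eq_one hR (le_of_lt hy)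
  rw [h.fderiv_eq]
  simp

theorem jL1_rho_fderiv_apply {d : ℕ} (R : ℝ) (x v : Sp d) :
    fderiv ℝ (jL1_rho (d := d) R) x v = R⁻¹ * fderiv ℝ (jL1_bump d) (R⁻¹ • x) v := by
  have h1 : HasFDerivAt (jL1_bump d) (fderiv ℝ (jL1_bump d) (R⁻¹ • x)) (R⁻¹ • x) :=
    ((jL1_bump d).contDiff.differentiable (n := 1) one_ne_zero (R⁻¹ • x)).hasFDerivAt
  have h2 : HasFDerivAt (fun y : Sp d => R⁻¹ • y) (R⁻¹ • ContinuousLinearMap.id ℝ (Sp d)) x :=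
    (hasFDerivAt_id x).const_smul R⁻¹
  have h3 : HasFDerivAt (jL1_rho (d := d) R) _ x := h1.comp x h2
  rw [h3.fderiv]
  simp

/-- The cut-off regularised field. -/
noncomputable def jL1_phi {d : ℕ} (R e : ℝ) (x : Sp d) : Sp d := jL1_rho R x • jL1_psi e x

theorem jL1_phi_contDiff {d : ℕ} (R : ℝ) {e : ℝ} (he : 0 < e) :
    ContDiff ℝ 1 (jL1_phi (d := d) R e) :=
  (jL1_rho_contDiff R).smul (jL1_psi_contDiff he)

theorem jL1_phi_hasCompactSupport {d : ℕ} {R : ℝ} (hR : 0 < R) (e : ℝ) :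
    HasCompactSupport (jL1_phi (d := d) R e) := by
  refine HasCompactSupport.intro (isCompact_closedBall (0 : Sp d) (4 * R)) ?_
  intro x hx
  rw [mem_closedBall_zero_iff, not_le] at hx
  unfold jL1_phi
  rw [jL1_rho_eq_zero hR hx.le, zero_smul]

theorem jL1_phi_norm_le {d : ℕ} (R : ℝ) {e : ℝ} (he : 0 < e) (x : Sp d) :
    ‖jL1_phi R e x‖ ≤ 1 := by
  unfold jL1_phi
  rw [norm_smul, Real.norm_eq_abs, abs_of_nonneg (jL1_rho_nonneg R x)]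
  exact mul_le_one₀ (jL1_rho_le_one R x) (norm_nonneg _) (jL1_psi_norm_le he x)

theorem jL1_phi_div {d : ℕ} (R : ℝ) {e : ℝ} (he : 0 < e) (x : Sp d) :
    divergence (jL1_phi (d := d) R e) x
      = jL1_rho R x * divergence (jL1_psi e) x + fderiv ℝ (jL1_rho R) x (jL1_psi e x) :=
  jL1_div_smul (jL1_rho R) (jL1_psi e) x ((jL1_rho_contDiff R).differentiable one_ne_zero x)
    ((jL1_psi_contDiff he).differentiable one_ne_zero x)

theorem jL1_phi_div_near {d : ℕ} {R : ℝ} (hR : 0 < R) {e : ℝ} (he : 0 < e) (x : Sp d)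
    (hx : ‖x‖ ≤ R) : divergence (jL1_phi (d := d) R e) x = divergence (jL1_psi e) x := by
  have h1 : jL1_rho R x = 1 := jL1_rho_eq_one hR (by linarith)
  have h2 : fderiv ℝ (jL1_rho (d := d) R) x = 0 := jL1_rho_fderiv_eq_zero hR (by linarith)
  rw [jL1_phi_div R he, h1, h2, one_mul]
  simp

theorem jL1_phi_div_far {d : ℕ} (hd : 1 ≤ d) {R : ℝ} (hR : 1 ≤ R) {e : ℝ} (he : 0 < e) {M : ℝ}
    (hM : ∀ y, ‖fderiv ℝ (jL1_bump d) y‖ ≤ M) (x : Sp d) :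
    -M ≤ divergence (jL1_phi (d := d) R e) x := by
  have hR0 : 0 < R := by linarith
  have hM0 : 0 ≤ M := (norm_nonneg _).trans (hM 0)
  rw [jL1_phi_div R he, jL1_rho_fderiv_apply]
  have h1 : |fderiv ℝ (jL1_bump d) (R⁻¹ • x) (jL1_psi e x)| ≤ M * 1 := by
    calc |fderiv ℝ (jL1_bump d) (R⁻¹ • x) (jL1_psi e x)|
        = ‖fderiv ℝ (jL1_bump d) (R⁻¹ • x) (jL1_psi e x)‖ := (Real.norm_eq_abs _).symm
      _ ≤ ‖fderiv ℝ (jL1_bump d) (R⁻¹ • x)‖ * ‖jL1_psi e x‖ := ContinuousLinearMap.le_opNorm _ _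
      _ ≤ M * 1 := mul_le_mul (hM _) (jL1_psi_norm_le he x) (norm_nonneg _) hM0
  have h2 : R⁻¹ ≤ 1 := inv_le_one_of_one_le₀ hR
  have h3 : 0 < R⁻¹ := inv_pos.mpr hR0
  have h4 := abs_le.mp h1
  have h5 : -M ≤ R⁻¹ * fderiv ℝ (jL1_bump d) (R⁻¹ • x) (jL1_psi e x) := by
    nlinarith [h4.1, h4.2]
  have h6 : 0 ≤ jL1_rho R x * divergence (jL1_psi e) x :=
    mul_nonneg (jL1_rho_nonneg R x) (jL1_psi_div_nonneg hd he x)
  linarith

/-- Smooth radial test fields: there is a constant `M` (depending on the dimension only) such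
that for all `δ > 0`, `R ≥ 1` and `c < 1` there is a continuously differentiable field `φ` with
compact support and `|φ| ≤ 1` whose divergence is nonnegative on the ball of radius `R`, at least
`c (d - 1) / |x|` for `δ ≤ |x| ≤ R`, and at least `-M` everywhere else. -/
theorem exists_field {d : ℕ} (hd : 1 ≤ d) :
    ∃ M : ℝ, 0 ≤ M ∧ ∀ (δ R c : ℝ), 0 < δ → 1 ≤ R → c < 1 →
      ∃ φ : Sp d → Sp d, ContDiff ℝ 1 φ ∧ HasCompactSupport φ ∧ (∀ x, ‖φ x‖ ≤ 1) ∧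
        (∀ x, ‖x‖ ≤ R → 0 ≤ divergence φ x) ∧
        (∀ x, δ ≤ ‖x‖ → ‖x‖ ≤ R → c * ((d : ℝ) - 1) * ‖x‖⁻¹ ≤ divergence φ x) ∧
        (∀ x, R < ‖x‖ → -M ≤ divergence φ x) := by
  have hcont : Continuous (fderiv ℝ (jL1_bump d)) :=
    ((jL1_bump d).contDiff (n := 1)).continuous_fderiv one_ne_zero
  have hcs : HasCompactSupport (fderiv ℝ (jL1_bump d)) := (jL1_bump d).hasCompactSupport.fderiv ℝ
  obtain ⟨M, hM'⟩ := hcont.bounded_above_of_compact_support hcs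
  have hM0 : 0 ≤ M := (norm_nonneg _).trans (hM' 0)
  refine ⟨M, hM0, ?_⟩
  intro δ R c hδ hR hc
  have hR0 : 0 < R := by linarith
  have he : 0 < (1 - c) / 2 * δ ^ 2 := mul_pos (by linarith) (pow_pos hδ 2)
  refine ⟨jL1_phi R ((1 - c) / 2 * δ ^ 2), jL1_phi_contDiff R he, jL1_phi_hasCompactSupport hR0 _,
    jL1_phi_norm_le R he, ?_, ?_, ?_⟩
  · intro x hx
    rw [jL1_phi_div_near hR0 he x hx]
    exact jL1_psi_div_nonneg hd he x
  · intro x hx1 hx2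
    rw [jL1_phi_div_near hR0 he x hx2]
    exact jL1_psi_div_ge hd hδ hc x hx1
  · intro x _
    exact jL1_phi_div_far hd hR he hM' x

end Vale.Agent.Lib.P137
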