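import Mathlib
import Vale.Agent.Lib.P137.Defs

/-!
# P137, pool job C: polar coordinates for radial functions, `lintegral` form

The `lintegral` version of `MeasureTheory.integral_fun_norm_addHaar`, for Euclidean space.
-/

open MeasureTheory

namespace Vale.Agent.Lib.P137

/-- Polar coordinates for a radial function, `lintegral` form, for an additive Haar measure on a
nontrivial finite-dimensional real normed space. -/
theorem jC_lintegral_fun_norm_addHaar {E : Type*} [NormedAddCommGroup E] [NormedSpace ℝ E]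
    [FiniteDimensional ℝ E] [MeasurableSpace E] [BorelSpace E] [Nontrivial E]
    (μ : Measure E) [μ.IsAddHaarMeasure] (H : ℝ → ENNReal) (hH : Measurable H) :
    ∫⁻ x, H ‖x‖ ∂μ = (Module.finrank ℝ E : ENNReal) * μ (Metric.ball (0 : E) 1) *
      ∫⁻ ρ in Set.Ioi (0 : ℝ), ENNReal.ofReal (ρ ^ (Module.finrank ℝ E - 1)) * H ρ := by
  have h1 : ∫⁻ x, H ‖x‖ ∂μ = ∫⁻ x : ({(0 : E)}ᶜ : Set E), H ‖x.1‖ ∂(μ.comap (↑)) := by
    rw [lintegral_subtype_comap (measurableSet_singleton _).compl fun x ↦ H ‖x‖,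
      MeasureTheory.restrict_compl_singleton]
  have h2 : ∫⁻ x : ({(0 : E)}ᶜ : Set E), H ‖x.1‖ ∂(μ.comap (↑)) =
      ∫⁻ p, H p.2 ∂(μ.toSphere.prod (Measure.volumeIoiPow (Module.finrank ℝ E - 1))) := by
    have h := μ.measurePreserving_homeomorphUnitSphereProd.lintegral_comp_emb
      (Homeomorph.measurableEmbedding _)
      (fun p : Metric.sphere (0 : E) 1 × Set.Ioi (0 : ℝ) => H p.2)
    rw [← h]
    refine lintegral_congr fun x => ?_
    simp
  have h3 : ∫⁻ p, H p.2 ∂(μ.toSphere.prod (Measure.volumeIoiPow (Module.finrank ℝ E - 1))) =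
      μ.toSphere Set.univ *
        ∫⁻ ρ : Set.Ioi (0 : ℝ), H ρ ∂(Measure.volumeIoiPow (Module.finrank ℝ E - 1)) := by
    rw [lintegral_prod (fun p : Metric.sphere (0 : E) 1 × Set.Ioi (0 : ℝ) => H p.2)
      ((hH.comp (measurable_subtype_coe.comp measurable_snd)).aemeasurable)]
    show ∫⁻ _x : Metric.sphere (0 : E) 1,
        (∫⁻ y : Set.Ioi (0 : ℝ), H y ∂(Measure.volumeIoiPow (Module.finrank ℝ E - 1)))
          ∂μ.toSphere = _
    rw [lintegral_const, mul_comm]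
  have h4 : ∫⁻ ρ : Set.Ioi (0 : ℝ), H ρ ∂(Measure.volumeIoiPow (Module.finrank ℝ E - 1)) =
      ∫⁻ ρ in Set.Ioi (0 : ℝ), ENNReal.ofReal (ρ ^ (Module.finrank ℝ E - 1)) * H ρ := by
    have hg : Measurable fun ρ : Set.Ioi (0 : ℝ) => H ρ := hH.comp measurable_subtype_coe
    rw [Measure.volumeIoiPow, lintegral_withDensity_eq_lintegral_mul _
      ((measurable_subtype_coe.pow_const _).ennreal_ofReal) hg]
    exact lintegral_subtype_comap measurableSet_Ioi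
      (fun ρ : ℝ => ENNReal.ofReal (ρ ^ (Module.finrank ℝ E - 1)) * H ρ)
  rw [h1, h2, h3, h4, μ.toSphere_apply_univ]

theorem lintegral_fun_norm {d : ℕ} (hd : 1 ≤ d) (H : ℝ → ENNReal) (hH : Measurable H) :
    ∫⁻ x : Sp d, H ‖x‖
      = (d : ENNReal) * volume (Metric.ball (0 : Sp d) 1) *
          ∫⁻ ρ in Set.Ioi (0 : ℝ), ENNReal.ofReal (ρ ^ (d - 1)) * H ρ := by
  have hne : Nonempty (Fin d) := ⟨⟨0, hd⟩⟩
  have h := jC_lintegral_fun_norm_addHaar (volume : Measure (Sp d)) H hH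
  rw [finrank_euclideanSpace_fin] at h
  exact h

theorem lintegral_fun_norm_div {d : ℕ} (hd : 2 ≤ d) (K : ℝ → ENNReal) (hK : Measurable K) :
    ∫⁻ x : Sp d, K ‖x‖ * ENNReal.ofReal ‖x‖⁻¹
      = (d : ENNReal) * volume (Metric.ball (0 : Sp d) 1) *
          ∫⁻ ρ in Set.Ioi (0 : ℝ), ENNReal.ofReal (ρ ^ (d - 2)) * K ρ := by
  have hmeas : Measurable fun ρ : ℝ => K ρ * ENNReal.ofReal ρ⁻¹ :=
    hK.mul (measurable_inv.ennreal_ofReal)
  have h := lintegral_fun_norm (d := d) (le_trans (by norm_num) hd)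
    (fun ρ : ℝ => K ρ * ENNReal.ofReal ρ⁻¹) hmeas
  rw [h]
  congr 1
  refine setLIntegral_congr_fun measurableSet_Ioi fun ρ hρ => ?_
  have hρ0 : (0 : ℝ) < ρ := hρ
  have e1 : d - 1 = (d - 2) + 1 := by omega
  have e2 : ρ ^ (d - 1) = ρ ^ (d - 2) * ρ := by rw [e1, pow_succ]
  have e3 : ENNReal.ofReal (ρ ^ (d - 2)) * ENNReal.ofReal ρ * ENNReal.ofReal ρ⁻¹ =
      ENNReal.ofReal (ρ ^ (d - 2)) := by
    rw [mul_assoc, ← ENNReal.ofReal_mul hρ0.le, mul_inv_cancel₀ hρ0.ne', ENNReal.ofReal_one,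
      mul_one]
  show ENNReal.ofReal (ρ ^ (d - 1)) * (K ρ * ENNReal.ofReal ρ⁻¹) =
    ENNReal.ofReal (ρ ^ (d - 2)) * K ρ
  rw [e2, ENNReal.ofReal_mul (pow_nonneg hρ0.le _)]
  calc ENNReal.ofReal (ρ ^ (d - 2)) * ENNReal.ofReal ρ * (K ρ * ENNReal.ofReal ρ⁻¹)
      = (ENNReal.ofReal (ρ ^ (d - 2)) * ENNReal.ofReal ρ * ENNReal.ofReal ρ⁻¹) * K ρ := by ring
    _ = ENNReal.ofReal (ρ ^ (d - 2)) * K ρ := by rw [e3]

end Vale.Agent.Lib.P137
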