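import Mathlib
import Vale.Agent.Lib.P137.Defs
import Vale.Agent.Lib.P137.pool.Polar

/-!
# P137, job D: the weighted integral of the ball means

For an antitone profile `G`, the integral of `u (|x| / 2) / |x|` over `R^d`, where `u s` is the
mean of `w ↦ G (s |w|)` over the unit ball, equals `d 2^(d-1)` times the integral of
`G |x| / |x|`.  Proof: Tonelli on `R^d × R^d`, the dilation `x ↦ c x` for the inner integral,
and polar coordinates for the integral of `|w|^(1-d)` over the unit ball.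
-/

open MeasureTheory

namespace Vale.Agent.Lib.P137

/-- Dilation of the weighted radial integral. -/
theorem jD_scale {d : ℕ} (hd : 1 ≤ d) (G : ℝ → ENNReal) (c : ℝ) (hc : 0 < c) :
    ∫⁻ x : Sp d, G (c * ‖x‖) * ENNReal.ofReal ‖x‖⁻¹
      = ENNReal.ofReal ((c⁻¹) ^ (d - 1)) * ∫⁻ y : Sp d, G ‖y‖ * ENNReal.ofReal ‖y‖⁻¹ := by
  set e : Sp d ≃ᵐ Sp d := (Homeomorph.smulOfNeZero c hc.ne').toMeasurableEquiv with he
  have he_apply : ∀ x : Sp d, e x = c • x := fun x => rfl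
  set f : Sp d → ENNReal := fun y => G ‖y‖ * ENNReal.ofReal (c * ‖y‖⁻¹) with hf
  have h1 : ∫⁻ x : Sp d, G (c * ‖x‖) * ENNReal.ofReal ‖x‖⁻¹ = ∫⁻ x : Sp d, f (e x) := by
    refine lintegral_congr fun x => ?_
    rw [he_apply, hf]
    simp only
    rw [norm_smul, Real.norm_of_nonneg hc.le]
    congr 2
    rw [mul_inv, ← mul_assoc, mul_inv_cancel₀ hc.ne', one_mul]
  have h2 : ∫⁻ x : Sp d, f (e x) = ∫⁻ y, f y ∂(Measure.map e volume) :=
    (lintegral_map_equiv f e).symm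
  have h3 : Measure.map e (volume : Measure (Sp d))
      = ENNReal.ofReal |(c ^ Module.finrank ℝ (Sp d))⁻¹| • (volume : Measure (Sp d)) :=
    Measure.map_addHaar_smul volume hc.ne'
  have h4 : ∫⁻ y : Sp d, f y
      = ENNReal.ofReal c * ∫⁻ y : Sp d, G ‖y‖ * ENNReal.ofReal ‖y‖⁻¹ := by
    rw [← lintegral_const_mul' _ _ ENNReal.ofReal_ne_top]
    refine lintegral_congr fun y => ?_
    rw [hf]
    simp only
    rw [ENNReal.ofReal_mul hc.le]
    ring
  rw [h1, h2, h3, lintegral_smul_measure, smul_eq_mul, h4, ← mul_assoc,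
    ← ENNReal.ofReal_mul (abs_nonneg _)]
  congr 2
  rw [finrank_euclideanSpace_fin, abs_of_pos (by positivity)]
  obtain ⟨k, rfl⟩ : ∃ k, d = k + 1 := ⟨d - 1, by omega⟩
  rw [Nat.add_sub_cancel, pow_succ, inv_pow]
  field_simp

/-- The integral of `(2 / |w|) ^ (d - 1)` over the unit ball. -/
theorem jD_ball {d : ℕ} (hd : 1 ≤ d) :
    ∫⁻ w in Metric.ball (0 : Sp d) 1, ENNReal.ofReal (((‖w‖ / 2)⁻¹) ^ (d - 1))
      = (d : ENNReal) * volume (Metric.ball (0 : Sp d) 1) * 2 ^ (d - 1) := by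
  set h : ℝ → ENNReal := fun ρ => ENNReal.ofReal (((ρ / 2)⁻¹) ^ (d - 1)) with hh
  have hmeas : Measurable h :=
    ENNReal.measurable_ofReal.comp (((measurable_id.div_const 2).inv).pow_const (d - 1))
  set H : ℝ → ENNReal := (Set.Iio (1 : ℝ)).indicator h with hH
  have hHmeas : Measurable H := hmeas.indicator measurableSet_Iio
  have h1 : ∫⁻ w in Metric.ball (0 : Sp d) 1, ENNReal.ofReal (((‖w‖ / 2)⁻¹) ^ (d - 1))
      = ∫⁻ w : Sp d, H ‖w‖ := by
    rw [← lintegral_indicator Metric.isOpen_ball.measurableSet]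
    refine lintegral_congr fun w => ?_
    by_cases hw : w ∈ Metric.ball (0 : Sp d) 1
    · have hw' : ‖w‖ ∈ Set.Iio (1 : ℝ) := by simpa using hw
      rw [Set.indicator_of_mem hw, hH, Set.indicator_of_mem hw']
    · have hw' : ‖w‖ ∉ Set.Iio (1 : ℝ) := by simpa using hw
      rw [Set.indicator_of_notMem hw, hH, Set.indicator_of_notMem hw']
  rw [h1, lintegral_fun_norm hd H hHmeas]
  have h2 : ∫⁻ ρ in Set.Ioi (0 : ℝ), ENNReal.ofReal (ρ ^ (d - 1)) * H ρ
      = ∫⁻ ρ in Set.Ioi (0 : ℝ), (Set.Iio (1 : ℝ)).indicator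
          (fun _ => ENNReal.ofReal (2 ^ (d - 1))) ρ := by
    refine setLIntegral_congr_fun measurableSet_Ioi fun ρ hρ => ?_
    have hρ0 : (0 : ℝ) < ρ := hρ
    by_cases h1 : ρ ∈ Set.Iio (1 : ℝ)
    · rw [hH, Set.indicator_of_mem h1, Set.indicator_of_mem h1, hh]
      simp only
      rw [← ENNReal.ofReal_mul (by positivity), ← mul_pow]
      congr 2
      field_simp
    · rw [hH, Set.indicator_of_notMem h1, Set.indicator_of_notMem h1, mul_zero]
  rw [h2, lintegral_indicator measurableSet_Iio, Measure.restrict_restrict measurableSet_Iio,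
    setLIntegral_const]
  have h3 : Set.Iio (1 : ℝ) ∩ Set.Ioi 0 = Set.Ioo 0 1 := by
    ext ρ
    simp only [Set.mem_inter_iff, Set.mem_Iio, Set.mem_Ioi, Set.mem_Ioo]
    tauto
  rw [h3, Real.volume_Ioo, sub_zero, ENNReal.ofReal_one, mul_one,
    ENNReal.ofReal_pow (by norm_num), ENNReal.ofReal_ofNat]

theorem weighted_mean_bound {d : ℕ} (hd : 2 ≤ d) (G : ℝ → ENNReal) (hG : Antitone G) :
    ∫⁻ x : Sp d, ((∫⁻ w in Metric.ball (0 : Sp d) 1, G (‖x‖ / 2 * ‖w‖)) /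
        volume (Metric.ball (0 : Sp d) 1)) * ENNReal.ofReal ‖x‖⁻¹
      ≤ ((d : ENNReal) * 2 ^ (d - 1)) * ∫⁻ x : Sp d, G ‖x‖ * ENNReal.ofReal ‖x‖⁻¹ := by
  have hd1 : 1 ≤ d := by omega
  set v : ENNReal := volume (Metric.ball (0 : Sp d) 1) with hv
  have hv0 : v ≠ 0 := (Metric.measure_ball_pos volume (0 : Sp d) one_pos).ne'
  have hvtop : v ≠ ⊤ := measure_ball_lt_top.ne
  set I : ENNReal := ∫⁻ x : Sp d, G ‖x‖ * ENNReal.ofReal ‖x‖⁻¹ with hI
  have hGm : Measurable G := hG.measurable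
  -- pull the constant and the weight into the inner integral
  have h1 : ∫⁻ x : Sp d, ((∫⁻ w in Metric.ball (0 : Sp d) 1, G (‖x‖ / 2 * ‖w‖)) / v) *
        ENNReal.ofReal ‖x‖⁻¹
      = v⁻¹ * ∫⁻ x : Sp d, ∫⁻ w in Metric.ball (0 : Sp d) 1,
          G (‖x‖ / 2 * ‖w‖) * ENNReal.ofReal ‖x‖⁻¹ := by
    rw [← lintegral_const_mul' _ _ (ENNReal.inv_ne_top.2 hv0)]
    refine lintegral_congr fun x => ?_
    rw [lintegral_mul_const' _ _ ENNReal.ofReal_ne_top, ENNReal.div_eq_inv_mul, mul_assoc]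
  -- Tonelli
  have hmeas : Measurable (Function.uncurry fun (x w : Sp d) =>
      G (‖x‖ / 2 * ‖w‖) * ENNReal.ofReal ‖x‖⁻¹) := by
    refine Measurable.mul ?_ ?_
    · exact hGm.comp (((measurable_norm.comp measurable_fst).div_const 2).mul
        (measurable_norm.comp measurable_snd))
    · exact ENNReal.measurable_ofReal.comp (measurable_norm.comp measurable_fst).inv
  have h2 : ∫⁻ x : Sp d, ∫⁻ w in Metric.ball (0 : Sp d) 1,
        G (‖x‖ / 2 * ‖w‖) * ENNReal.ofReal ‖x‖⁻¹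
      = ∫⁻ w in Metric.ball (0 : Sp d) 1, ∫⁻ x : Sp d,
          G (‖x‖ / 2 * ‖w‖) * ENNReal.ofReal ‖x‖⁻¹ :=
    lintegral_lintegral_swap hmeas.aemeasurable
  -- the inner integral, for w ≠ 0
  have hne : ∀ᵐ w ∂((volume : Measure (Sp d)).restrict (Metric.ball (0 : Sp d) 1)),
      w ≠ 0 := by
    have hne0 : Nonempty (Fin d) := ⟨⟨0, by omega⟩⟩
    refine ae_restrict_of_ae ?_
    have h0 : (volume : Measure (Sp d)) {0} = 0 := measure_singleton 0
    exact compl_mem_ae_iff.2 h0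
  have h3 : ∫⁻ w in Metric.ball (0 : Sp d) 1, ∫⁻ x : Sp d,
        G (‖x‖ / 2 * ‖w‖) * ENNReal.ofReal ‖x‖⁻¹
      = ∫⁻ w in Metric.ball (0 : Sp d) 1,
          ENNReal.ofReal (((‖w‖ / 2)⁻¹) ^ (d - 1)) * I := by
    refine lintegral_congr_ae ?_
    filter_upwards [hne] with w hw
    have hc : 0 < ‖w‖ / 2 := by
      have := norm_pos_iff.2 hw
      positivity
    rw [← jD_scale hd1 G (‖w‖ / 2) hc]
    refine lintegral_congr fun x => ?_
    congr 2
    ring
  have h4 : ∫⁻ w in Metric.ball (0 : Sp d) 1,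
        ENNReal.ofReal (((‖w‖ / 2)⁻¹) ^ (d - 1)) * I
      = ((d : ENNReal) * v * 2 ^ (d - 1)) * I := by
    have hm : Measurable fun w : Sp d => ENNReal.ofReal (((‖w‖ / 2)⁻¹) ^ (d - 1)) :=
      ENNReal.measurable_ofReal.comp (((measurable_norm.div_const 2).inv).pow_const (d - 1))
    rw [lintegral_mul_const _ hm, jD_ball hd1]
  rw [h1, h2, h3, h4]
  refine le_of_eq ?_
  rw [← mul_assoc, ← mul_assoc, ← mul_assoc, mul_comm v⁻¹ (d : ENNReal), mul_assoc (d : ENNReal),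
    ENNReal.inv_mul_cancel hv0 hvtop, mul_one]

end Vale.Agent.Lib.P137
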