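import Mathlib
import Vale.Agent.Lib.P137.Defs

/-!
# P137, piece A: moving a ball towards the origin increases the integral of a radially
nonincreasing function

For an antitone profile `G` and points `x`, `y` with `‖x‖ ≤ ‖y‖`, the integral of `z ↦ G ‖z‖`
over the ball `B(y, r)` is at most the integral over `B(x, r)`.

Proof: reflect in the perpendicular bisector of `x` and `y`.  The reflection `s` is a measure
preserving isometry that swaps `x` and `y`, hence swaps the two balls; the common part of the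
balls contributes equally to both integrals, and on `B(y, r) \ B(x, r)` the reflection does not
increase the norm.
-/

open MeasureTheory

namespace Vale.Agent.Lib.P137

/-- The midpoint of `x` and `y`. -/
noncomputable def jA_mid {d : ℕ} (x y : Sp d) : Sp d := (1 / 2 : ℝ) • (x + y)

/-- The reflection in the perpendicular bisector of `x` and `y`. -/
noncomputable def jA_refl {d : ℕ} (x y : Sp d) (z : Sp d) : Sp d :=
  (ℝ ∙ (y - x))ᗮ.reflection (z - jA_mid x y) + jA_mid x y

theorem jA_refl_dist {d : ℕ} (x y z z' : Sp d) :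
    dist (jA_refl x y z) (jA_refl x y z') = dist z z' := by
  unfold jA_refl
  rw [dist_add_right, LinearIsometryEquiv.dist_map, dist_sub_right]

theorem jA_refl_refl {d : ℕ} (x y z : Sp d) : jA_refl x y (jA_refl x y z) = z := by
  unfold jA_refl
  rw [add_sub_cancel_right, Submodule.reflection_reflection, sub_add_cancel]

theorem jA_refl_y {d : ℕ} (x y : Sp d) : jA_refl x y y = x := by
  have e : (y - jA_mid x y) - (x - jA_mid x y) = y - x := by abel
  have e1 : y - jA_mid x y = (1 / 2 : ℝ) • (y - x) := by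
    unfold jA_mid
    module
  have e2 : x - jA_mid x y = (1 / 2 : ℝ) • (x - y) := by
    unfold jA_mid
    module
  have hn : ‖y - jA_mid x y‖ = ‖x - jA_mid x y‖ := by
    rw [e1, e2, norm_smul, norm_smul, norm_sub_rev]
  have h := Submodule.reflection_sub hn
  rw [e] at h
  unfold jA_refl
  rw [h, sub_add_cancel]

theorem jA_refl_x {d : ℕ} (x y : Sp d) : jA_refl x y x = y := by
  have h := jA_refl_refl x y y
  rw [jA_refl_y] at h
  exact h

theorem jA_refl_preimage_ball_x {d : ℕ} (x y : Sp d) (r : ℝ) :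
    jA_refl x y ⁻¹' Metric.ball x r = Metric.ball y r := by
  ext z
  rw [Set.mem_preimage, Metric.mem_ball, Metric.mem_ball]
  have h := jA_refl_dist x y z y
  rw [jA_refl_y] at h
  rw [h]

theorem jA_refl_preimage_ball_y {d : ℕ} (x y : Sp d) (r : ℝ) :
    jA_refl x y ⁻¹' Metric.ball y r = Metric.ball x r := by
  ext z
  rw [Set.mem_preimage, Metric.mem_ball, Metric.mem_ball]
  have h := jA_refl_dist x y z x
  rw [jA_refl_x] at h
  rw [h]

theorem jA_refl_measurePreserving {d : ℕ} (x y : Sp d) :
    MeasurePreserving (jA_refl x y) volume volume := by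
  have h1 : MeasurePreserving (fun z : Sp d => z - jA_mid x y) volume volume :=
    measurePreserving_sub_right volume (jA_mid x y)
  have h2 : MeasurePreserving ((ℝ ∙ (y - x))ᗮ.reflection : Sp d → Sp d) volume volume :=
    LinearIsometryEquiv.measurePreserving _
  have h3 : MeasurePreserving (fun z : Sp d => z + jA_mid x y) volume volume :=
    measurePreserving_add_right volume (jA_mid x y)
  exact h3.comp (h2.comp h1)

/-- The explicit formula for the linear reflection in the hyperplane orthogonal to `w`. -/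
theorem jA_reflection_apply {d : ℕ} (w v : Sp d) :
    (ℝ ∙ w)ᗮ.reflection v = v - (2 * (inner ℝ w v / ‖w‖ ^ 2)) • w := by
  rw [Submodule.reflection_orthogonal_apply, Submodule.reflection_singleton_apply]
  simp only [RCLike.ofReal_real_eq_id, id]
  module

/-- On the far side of the bisector the reflection does not increase the norm. -/
theorem jA_norm_refl_le {d : ℕ} (x y z : Sp d) (hne : x ≠ y) (hxy : ‖x‖ ≤ ‖y‖)
    (hz : dist z y ≤ dist z x) : ‖jA_refl x y z‖ ≤ ‖z‖ := by
  have hW : 0 < ‖y - x‖ ^ 2 := pow_pos (norm_pos_iff.mpr (sub_ne_zero.mpr hne.symm)) 2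
  have hβ : inner ℝ (y - x) (jA_mid x y) = (‖y‖ ^ 2 - ‖x‖ ^ 2) / 2 := by
    unfold jA_mid
    rw [inner_smul_right, inner_sub_left, inner_add_right, inner_add_right,
      real_inner_self_eq_norm_sq, real_inner_self_eq_norm_sq, real_inner_comm x y]
    ring
  have hδ : 2 * inner ℝ (y - x) (z - jA_mid x y) = dist z x ^ 2 - dist z y ^ 2 := by
    rw [inner_sub_right, hβ, dist_eq_norm, dist_eq_norm, norm_sub_sq_real, norm_sub_sq_real,
      inner_sub_left, real_inner_comm z y, real_inner_comm z x]
    ring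
  have hδ0 : 0 ≤ inner ℝ (y - x) (z - jA_mid x y) := by
    have h1 : dist z y ^ 2 ≤ dist z x ^ 2 := pow_le_pow_left₀ dist_nonneg hz 2
    linarith
  have hβ0 : 0 ≤ inner ℝ (y - x) (jA_mid x y) := by
    rw [hβ]
    have h1 : ‖x‖ ^ 2 ≤ ‖y‖ ^ 2 := pow_le_pow_left₀ (norm_nonneg x) hxy 2
    linarith
  have hs : jA_refl x y z
      = z - (2 * (inner ℝ (y - x) (z - jA_mid x y) / ‖y - x‖ ^ 2)) • (y - x) := by
    unfold jA_refl
    rw [jA_reflection_apply]
    abel
  have ha : inner ℝ z (y - x)
      = inner ℝ (y - x) (z - jA_mid x y) + inner ℝ (y - x) (jA_mid x y) := by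
    have h1 : inner ℝ (y - x) (z - jA_mid x y)
        = inner ℝ (y - x) z - inner ℝ (y - x) (jA_mid x y) := inner_sub_right _ _ _
    rw [real_inner_comm (y - x) z, h1]
    ring
  have hsq : ‖jA_refl x y z‖ ^ 2 = ‖z‖ ^ 2
      - 4 * inner ℝ (y - x) (z - jA_mid x y) * inner ℝ (y - x) (jA_mid x y) / ‖y - x‖ ^ 2 := by
    rw [hs, norm_sub_sq_real, norm_smul, inner_smul_right, mul_pow, Real.norm_eq_abs, sq_abs, ha]
    field_simp
    ring
  have hle : ‖jA_refl x y z‖ ^ 2 ≤ ‖z‖ ^ 2 := by
    rw [hsq]
    have h1 : 0 ≤ 4 * inner ℝ (y - x) (z - jA_mid x y) * inner ℝ (y - x) (jA_mid x y)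
        / ‖y - x‖ ^ 2 :=
      div_nonneg (mul_nonneg (mul_nonneg (by norm_num) hδ0) hβ0) hW.le
    linarith
  exact le_of_pow_le_pow_left₀ two_ne_zero (norm_nonneg z) hle

/-- Moving a ball towards the origin does not decrease the integral of a radially nonincreasing
function: for `‖x‖ ≤ ‖y‖` the integral of `z ↦ G ‖z‖` over `B(y, r)` is at most the integral
over `B(x, r)`. -/
theorem ball_lintegral_le {d : ℕ} (G : ℝ → ENNReal) (hG : Antitone G) (x y : Sp d)
    (hxy : ‖x‖ ≤ ‖y‖) (r : ℝ) :
    ∫⁻ z in Metric.ball y r, G ‖z‖ ≤ ∫⁻ z in Metric.ball x r, G ‖z‖ := by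
  rcases eq_or_ne x y with rfl | hne
  · exact le_rfl
  have hGm : Measurable (fun z : Sp d => G ‖z‖) := hG.measurable.comp measurable_norm
  have hmp := jA_refl_measurePreserving x y
  have hBx : MeasurableSet (Metric.ball x r) := measurableSet_ball
  have hBy : MeasurableSet (Metric.ball y r) := measurableSet_ball
  have hD : ∫⁻ z in Metric.ball y r \ Metric.ball x r, G ‖z‖
      ≤ ∫⁻ z in Metric.ball x r \ Metric.ball y r, G ‖z‖ := by
    have hpre : jA_refl x y ⁻¹' (Metric.ball x r \ Metric.ball y r)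
        = Metric.ball y r \ Metric.ball x r := by
      rw [Set.preimage_sdiff, jA_refl_preimage_ball_x, jA_refl_preimage_ball_y]
    have h1 := hmp.setLIntegral_comp_preimage (hBx.diff hBy) hGm
    rw [hpre] at h1
    rw [← h1]
    refine setLIntegral_mono' (hBy.diff hBx) ?_
    intro z hz
    refine hG (jA_norm_refl_le x y z hne hxy ?_)
    have h2 : dist z y < r := Metric.mem_ball.mp hz.1
    have h3 : r ≤ dist z x := by
      by_contra hcon
      exact hz.2 (Metric.mem_ball.mpr (not_le.mp hcon))
    linarith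
  calc ∫⁻ z in Metric.ball y r, G ‖z‖
      = (∫⁻ z in Metric.ball y r ∩ Metric.ball x r, G ‖z‖)
          + ∫⁻ z in Metric.ball y r \ Metric.ball x r, G ‖z‖ :=
        (lintegral_inter_add_sdiff _ _ hBx).symm
    _ ≤ (∫⁻ z in Metric.ball y r ∩ Metric.ball x r, G ‖z‖)
          + ∫⁻ z in Metric.ball x r \ Metric.ball y r, G ‖z‖ := by
        gcongr
    _ = (∫⁻ z in Metric.ball x r ∩ Metric.ball y r, G ‖z‖)
          + ∫⁻ z in Metric.ball x r \ Metric.ball y r, G ‖z‖ := by
        rw [Set.inter_comm]
    _ = ∫⁻ z in Metric.ball x r, G ‖z‖ := lintegral_inter_add_sdiff _ _ hBy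

end Vale.Agent.Lib.P137
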