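import Mathlib
import Vale.Agent.Lib.P137.Defs

/-!
# P137: dilation of the integral of a radial function over a centered ball (pool piece B)
-/

namespace Vale.Agent.Lib.P137

open MeasureTheory

/-- Change of variables `z = ρ • w` for lower integrals on Euclidean space. -/
theorem jB_lintegral_smul {d : ℕ} (g : Sp d → ENNReal) (ρ : ℝ) (hρ : 0 < ρ) :
    ∫⁻ w, g (ρ • w) = ENNReal.ofReal ((ρ ^ d)⁻¹) * ∫⁻ z, g z := by
  have hne : ρ ≠ 0 := hρ.ne'
  have h1 : ∫⁻ w, g (ρ • w) = ∫⁻ z, g z ∂(Measure.map (fun w : Sp d => ρ • w) volume) :=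
    (lintegral_map_equiv g (MeasurableEquiv.smul₀ ρ hne)).symm
  have hpos : (0 : ℝ) < (ρ ^ d)⁻¹ := by positivity
  rw [h1, Measure.map_addHaar_smul volume hne, lintegral_smul_measure,
    finrank_euclideanSpace_fin, abs_of_pos hpos]
  rfl

/-- The dilation by `ρ` maps the unit ball onto the ball of radius `ρ`. -/
theorem jB_mem_ball {d : ℕ} (ρ : ℝ) (hρ : 0 < ρ) (w : Sp d) :
    ρ • w ∈ Metric.ball (0 : Sp d) ρ ↔ w ∈ Metric.ball (0 : Sp d) 1 := by
  rw [mem_ball_zero_iff, mem_ball_zero_iff, norm_smul, Real.norm_of_nonneg hρ.le]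
  constructor
  · intro h
    by_contra hc
    have h1 : 1 ≤ ‖w‖ := not_lt.mp hc
    nlinarith
  · intro h
    nlinarith

theorem ball_lintegral_scale {d : ℕ} (G : ℝ → ENNReal) (hG : Antitone G) (ρ : ℝ) (hρ : 0 < ρ) :
    ∫⁻ z in Metric.ball (0 : Sp d) ρ, G ‖z‖
      = ENNReal.ofReal (ρ ^ d) * ∫⁻ w in Metric.ball (0 : Sp d) 1, G (ρ * ‖w‖) := by
  have _hG : Antitone G := hG
  have hind : ∀ w : Sp d, (Metric.ball (0 : Sp d) ρ).indicator (fun z => G ‖z‖) (ρ • w)
      = (Metric.ball (0 : Sp d) 1).indicator (fun w => G (ρ * ‖w‖)) w := by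
    intro w
    by_cases hw : w ∈ Metric.ball (0 : Sp d) 1
    · rw [Set.indicator_of_mem hw, Set.indicator_of_mem ((jB_mem_ball ρ hρ w).mpr hw),
        norm_smul, Real.norm_of_nonneg hρ.le]
    · rw [Set.indicator_of_notMem hw,
        Set.indicator_of_notMem (fun h => hw ((jB_mem_ball ρ hρ w).mp h))]
  have h1 := jB_lintegral_smul ((Metric.ball (0 : Sp d) ρ).indicator (fun z => G ‖z‖)) ρ hρ
  rw [funext hind, lintegral_indicator measurableSet_ball,
    lintegral_indicator measurableSet_ball] at h1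
  have hpos : (0 : ℝ) < ρ ^ d := by positivity
  rw [h1, ← mul_assoc, ← ENNReal.ofReal_mul hpos.le, mul_inv_cancel₀ hpos.ne',
    ENNReal.ofReal_one, one_mul]

end Vale.Agent.Lib.P137
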